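import Vale.Agent.P050.O.H300.Defs
import Mathlib.MeasureTheory.Function.AEEqOfIntegral

set_option linter.all false

/-!
Dense targets, equality: if a cycle of length `2 k`, `k ≥ 2`, has density `0` in the perturbation
`U`, then `U = 0`.
-/

open MeasureTheory Finset

namespace Vale.Agent.P050.Opt

open Vale.Agent.P050 Vale.Agent.P050.Dense

namespace H559

section

variable {Ω : Type*} [MeasurableSpace Ω] (μ : Measure Ω) [IsProbabilityMeasure μ]
variable {U : Sym2 Ω → ℝ} {ε : ℝ}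

/-- the kernel of the power `n + 1` -/
noncomputable def PP (μ : Measure Ω) (U : Sym2 Ω → ℝ) (n : ℕ) (s t : Ω) : ℝ :=
  kern μ (two U) (List.replicate n (fun _ => (1:ℝ))) s t

lemma bm_PP (hU : Good U ε) (n : ℕ) : BM (fun p : Ω × Ω => PP μ U n p.1 p.2) :=
  bm_kern_replicate μ hU n

lemma PP_symm (hU : Good U ε) (n : ℕ) (s t : Ω) : PP μ U n s t = PP μ U n t s :=
  kern_replicate_symm μ hU n s t

lemma bm_PP_left (hU : Good U ε) (n : ℕ) (s : Ω) : BM (fun t => PP μ U n s t) :=
  (bm_PP μ hU n).comp (g := fun t => (s, t)) (by fun_prop)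

lemma bm_PP_right (hU : Good U ε) (n : ℕ) (t : Ω) : BM (fun s => PP μ U n s t) :=
  (bm_PP μ hU n).comp (g := fun s => (s, t)) (by fun_prop)

lemma PP_zero (s t : Ω) : PP μ U 0 s t = two U s t := rfl

lemma PP_succ (n : ℕ) (s t : Ω) :
    PP μ U (n + 1) s t = ∫ y, two U s y * PP μ U n y t ∂μ := by
  show ∫ y, two U s y * 1 * PP μ U n y t ∂μ = _
  simp only [mul_one]

/-- the semigroup law -/
lemma PP_conv (hU : Good U ε) (m n : ℕ) (s t : Ω) :
    PP μ U (m + n + 1) s t = ∫ y, PP μ U m s y * PP μ U n y t ∂μ := by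
  induction m generalizing s with
  | zero =>
    rw [Nat.zero_add, PP_succ]
    rfl
  | succ m ih =>
    have e : m + 1 + n + 1 = (m + n + 1) + 1 := by ring
    rw [e, PP_succ]
    have h1 : ∀ y, two U s y * PP μ U (m + n + 1) y t =
        ∫ z, two U s y * (PP μ U m y z * PP μ U n z t) ∂μ := by
      intro y
      rw [ih, integral_const_mul]
    have h2 : ∀ z, PP μ U (m + 1) s z * PP μ U n z t =
        ∫ y, two U s y * (PP μ U m y z * PP μ U n z t) ∂μ := by
      intro z
      rw [PP_succ, ← integral_mul_const]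
      congr 1
      ext y
      ring
    simp only [h1, h2]
    apply integral_integral_swap
    have k1 : BM (fun r : Ω × Ω => two U s r.1) :=
      (bm_PP_left μ hU 0 s).comp (g := fun r : Ω × Ω => r.1) (by fun_prop)
    have k2 : BM (fun r : Ω × Ω => PP μ U m r.1 r.2) := bm_PP μ hU m
    have k3 : BM (fun r : Ω × Ω => PP μ U n r.2 t) :=
      (bm_PP_right μ hU n t).comp (g := fun r : Ω × Ω => r.2) (by fun_prop)
    exact (k1.mul (k2.mul k3)).integrable _

lemma ck_eq (n : ℕ) : ck μ U (n + 1) = ∫ s, ∫ t, PP μ U n s t ^ 2 ∂μ ∂μ := rfl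

/-- a function with second moment zero -/
lemma ae_zero_of_sq {f : Ω → ℝ} (hf : BM f) (h : ∫ t, f t ^ 2 ∂μ = 0) : ∀ᵐ t ∂μ, f t = 0 := by
  have h1 := (integral_eq_zero_iff_of_nonneg (fun t => sq_nonneg (f t))
    ((hf.pow 2).integrable μ)).1 h
  filter_upwards [h1] with t ht
  exact pow_eq_zero_iff (two_ne_zero) |>.1 ht

lemma ae_of_ck (hU : Good U ε) (n : ℕ) (h : ck μ U (n + 1) = 0) :
    ∀ᵐ s ∂μ, ∀ᵐ t ∂μ, PP μ U n s t = 0 := by
  rw [ck_eq] at h
  have hb : BM (fun s => ∫ t, PP μ U n s t ^ 2 ∂μ) := by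
    have := ((bm_PP μ hU n).pow 2).integral_right μ
    exact this
  have h1 := (integral_eq_zero_iff_of_nonneg
    (fun s => integral_nonneg fun t => sq_nonneg (PP μ U n s t)) (hb.integrable μ)).1 h
  filter_upwards [h1] with s hs
  exact ae_zero_of_sq μ (bm_PP_left μ hU n s) hs

/-- from the power `n + 3` to the power `n + 2` -/
lemma ae_step (hU : Good U ε) (n : ℕ) (h : ∀ᵐ s ∂μ, ∀ᵐ t ∂μ, PP μ U (n + 2) s t = 0) :
    ∀ᵐ s ∂μ, ∀ᵐ t ∂μ, PP μ U (n + 1) s t = 0 := by
  filter_upwards [h] with s hs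
  apply ae_zero_of_sq μ (bm_PP_left μ hU (n + 1) s)
  have h1 : ∫ t, PP μ U (n + 1) s t ^ 2 ∂μ = PP μ U (n + 1 + (n + 1) + 1) s s := by
    rw [PP_conv μ hU]
    congr 1
    ext t
    rw [PP_symm μ hU (n + 1) t s, sq]
  have e : n + 1 + (n + 1) + 1 = n + 2 + n + 1 := by ring
  rw [h1, e, PP_conv μ hU]
  apply integral_eq_zero_of_ae
  filter_upwards [hs] with t ht
  rw [ht]
  simp

/-- from the power `n + 2` to the power `2` -/
lemma ae_two (hU : Good U ε) (n : ℕ) (h : ∀ᵐ s ∂μ, ∀ᵐ t ∂μ, PP μ U (n + 1) s t = 0) :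
    ∀ᵐ s ∂μ, ∀ᵐ t ∂μ, PP μ U 1 s t = 0 := by
  induction n with
  | zero => exact h
  | succ n ih => exact ih (ae_step μ hU n h)

/-- the operator is zero -/
lemma op_zero (hU : Good U ε) (h : ∀ᵐ s ∂μ, ∀ᵐ t ∂μ, PP μ U 1 s t = 0) {f : Ω → ℝ} (hf : BM f) :
    ∀ᵐ y ∂μ, ∫ s, f s * two U s y ∂μ = 0 := by
  have hb2 : BM (fun p : Ω × Ω => two U p.1 p.2) := bm_PP μ hU 0
  have hbm : BM (fun y => ∫ s, f s * two U s y ∂μ) := by
    have k1 : BM (fun r : Ω × Ω => f r.2 * two U r.2 r.1) :=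
      (hf.comp (g := fun r : Ω × Ω => r.2) (by fun_prop)).mul
        (hb2.comp (g := fun r : Ω × Ω => (r.2, r.1)) (by fun_prop))
    exact k1.integral_right μ
  apply ae_zero_of_sq μ hbm
  -- the integral of the square
  have h1 : ∀ y, (∫ s, f s * two U s y ∂μ) ^ 2 =
      ∫ s, f s * two U s y * (∫ t, f t * two U t y ∂μ) ∂μ := by
    intro y
    rw [sq, integral_mul_const]
  have h2 : ∫ y, (∫ s, f s * two U s y ∂μ) ^ 2 ∂μ =
      ∫ s, ∫ y, f s * two U s y * (∫ t, f t * two U t y ∂μ) ∂μ ∂μ := by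
    simp only [h1]
    apply integral_integral_swap
    have k1 : BM (fun r : Ω × Ω => f r.2) := hf.comp (g := fun r : Ω × Ω => r.2) (by fun_prop)
    have k2 : BM (fun r : Ω × Ω => two U r.2 r.1) :=
      hb2.comp (g := fun r : Ω × Ω => (r.2, r.1)) (by fun_prop)
    have k3 : BM (fun r : Ω × Ω => ∫ t, f t * two U t r.1 ∂μ) :=
      hbm.comp (g := fun r : Ω × Ω => r.1) (by fun_prop)
    exact ((k1.mul k2).mul k3).integrable _
  rw [h2]
  apply integral_eq_zero_of_ae
  filter_upwards [h] with s hs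
  have h3 : ∀ y, f s * two U s y * (∫ t, f t * two U t y ∂μ) =
      ∫ t, f s * two U s y * (f t * two U t y) ∂μ := fun y => (integral_const_mul _ _).symm
  simp only [h3]
  rw [integral_integral_swap]
  · apply integral_eq_zero_of_ae
    filter_upwards [hs] with t ht
    have h4 : ∀ y, f s * two U s y * (f t * two U t y) =
        f s * f t * (two U s y * PP μ U 0 y t) := by
      intro y
      rw [PP_zero, two_symm U t y]
      ring
    simp only [h4]
    rw [integral_const_mul, ← PP_succ, ht, mul_zero]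
    rfl
  · have k1 : BM (fun r : Ω × Ω => two U s r.1) :=
      hb2.comp (g := fun r : Ω × Ω => (s, r.1)) (by fun_prop)
    have k2 : BM (fun r : Ω × Ω => f r.2) := hf.comp (g := fun r : Ω × Ω => r.2) (by fun_prop)
    have k3 : BM (fun r : Ω × Ω => two U r.2 r.1) :=
      hb2.comp (g := fun r : Ω × Ω => (r.2, r.1)) (by fun_prop)
    exact (((BM.const (f s)).mul k1).mul (k2.mul k3)).integrable _

/-- a function on the square whose integrals over all rectangles vanish -/
lemma ae_zero_of_rect {F : Ω × Ω → ℝ} (hF : BM F)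
    (h : ∀ A B : Set Ω, MeasurableSet A → MeasurableSet B →
      ∫ p in A ×ˢ B, F p ∂(μ.prod μ) = 0) : ∀ᵐ p ∂(μ.prod μ), F p = 0 := by
  have hint : Integrable F (μ.prod μ) := hF.integrable _
  have hall : ∀ S : Set (Ω × Ω), MeasurableSet S → ∫ p in S, F p ∂(μ.prod μ) = 0 := by
    intro S hS
    refine MeasurableSpace.induction_on_inter
      (C := fun S _ => ∫ p in S, F p ∂(μ.prod μ) = 0)
      generateFrom_prod.symm isPiSystem_prod ?_ ?_ ?_ ?_ S hS
    · simp
    · rintro _ ⟨A, hA, B, hB, rfl⟩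
      exact h A B hA hB
    · intro T hT hT0
      have h1 := integral_add_compl hT hint
      rw [hT0, zero_add] at h1
      rw [h1, ← setIntegral_univ, ← Set.univ_prod_univ]
      exact h _ _ MeasurableSet.univ MeasurableSet.univ
    · intro f hd hm h0
      rw [integral_iUnion hm hd hint.integrableOn]
      simp [h0]
  exact hint.ae_eq_zero_of_forall_setIntegral_eq_zero fun S hS _ => hall S hS

/-- if the square of the operator is zero, the kernel is zero -/
lemma two_ae_zero (hU : Good U ε) (h : ∀ᵐ s ∂μ, ∀ᵐ t ∂μ, PP μ U 1 s t = 0) :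
    ∀ᵐ p ∂(μ.prod μ), two U p.1 p.2 = 0 := by
  have hb2 : BM (fun p : Ω × Ω => two U p.1 p.2) := bm_PP μ hU 0
  apply ae_zero_of_rect μ hb2
  intro A B hA hB
  have h1 : BM (B.indicator (fun _ : Ω => (1:ℝ))) := by
    refine ⟨measurable_const.indicator hB, 1, fun x => ?_⟩
    by_cases hx : x ∈ B
    · rw [Set.indicator_of_mem hx, abs_one]
    · rw [Set.indicator_of_notMem hx, abs_zero]
      exact zero_le_one
  have h2 := op_zero μ hU h h1
  rw [setIntegral_prod _ (hb2.integrable _).integrableOn]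
  apply integral_eq_zero_of_ae
  apply ae_restrict_of_ae
  filter_upwards [h2] with x hx
  rw [← integral_indicator hB, Pi.zero_apply, ← hx]
  congr 1
  ext y
  by_cases hy : y ∈ B
  · rw [Set.indicator_of_mem hy, Set.indicator_of_mem hy, one_mul, two_symm]
  · rw [Set.indicator_of_notMem hy, Set.indicator_of_notMem hy, zero_mul]

/-- if the cycle of length `2 k`, `k ≥ 2`, has density zero, the kernel is zero almost
everywhere -/
theorem ck_zero_ae (hU : Good U ε) {k : ℕ} (hk : 2 ≤ k) (h : ck μ U k = 0) :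
    ∀ᵐ p ∂(μ.prod μ), two U p.1 p.2 = 0 := by
  obtain ⟨n, rfl⟩ : ∃ n, k = n + 1 + 1 := ⟨k - 2, by omega⟩
  exact two_ae_zero μ hU (ae_two μ hU n (ae_of_ck μ hU (n + 1) h))

end

section

variable {X : Type*} [MeasurableSpace X] (μ : Measure X) [IsProbabilityMeasure μ]
variable {U : Sym2 X → ℝ} {ε : ℝ}

/-- if the cycle of length `2 k`, `k ≥ 2`, has density zero and all points have positive weight,
the kernel is zero -/
theorem ck_zero (hU : Good U ε) (hμ : ∀ x, 0 < μ.real {x}) {k : ℕ} (hk : 2 ≤ k)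
    (h : ck μ U k = 0) (e : Sym2 X) : U e = 0 := by
  induction e with
  | h x y =>
    by_contra hne
    have h1 := ck_zero_ae μ hU hk h
    rw [ae_iff] at h1
    have h2 : ({x} ×ˢ {y} : Set (X × X)) ⊆ {p | ¬ two U p.1 p.2 = 0} := by
      rintro ⟨a, b⟩ ⟨ha, hb⟩
      rw [Set.mem_singleton_iff] at ha hb
      simp only at ha hb
      subst ha
      subst hb
      exact hne
    have h3 := measure_mono_null h2 h1
    rw [Measure.prod_prod, mul_eq_zero] at h3
    have h4 : ∀ x, μ {x} ≠ 0 := by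
      intro x h5
      have h6 := hμ x
      rw [Measure.real, h5] at h6
      simp at h6
    rcases h3 with h3 | h3
    · exact h4 x h3
    · exact h4 y h3

/-- a function with mean square zero vanishes at the points of positive weight -/
theorem sq_zero (hμ : ∀ x, 0 < μ.real {x}) {f : X → ℝ} (hf : BM f)
    (h : ∫ x, f x ^ 2 ∂μ = 0) (x : X) : f x = 0 := by
  by_contra hne
  have h1 := ae_zero_of_sq μ hf h
  rw [ae_iff] at h1
  have h2 : ({x} : Set X) ⊆ {p | ¬ f p = 0} := by
    intro a ha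
    rw [Set.mem_singleton_iff] at ha
    subst ha
    exact hne
  have h3 := measure_mono_null h2 h1
  have h6 := hμ x
  rw [Measure.real, h3] at h6
  simp at h6

/-- if a positive power of the row function is constant, the row function is `1` -/
theorem row_one (hμ : ∀ x, 0 < μ.real {x}) {r : X → ℝ} (hr : BM r) (hr0 : ∀ x, 0 < r x)
    (hr1 : ∫ x, (r x)⁻¹ ∂μ = 1) {a : ℕ} (ha : a ≠ 0) {A : ℝ}
    (h : ∫ x, (r x ^ a / A - 1) ^ 2 ∂μ = 0) (x : X) : r x = 1 := by
  have hb : BM (fun x => r x ^ a / A - 1) := by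
    have h2 : BM (fun s => r s ^ a * A⁻¹ - 1) := ((hr.pow _).mul (BM.const _)).sub (BM.const 1)
    simpa only [div_eq_mul_inv] using h2
  have h1 : ∀ y, r y ^ a / A = 1 := fun y => by
    have := sq_zero μ hμ hb h y
    linarith
  have hA : A ≠ 0 := by
    intro h0
    have := h1 x
    rw [h0, div_zero] at this
    exact zero_ne_one this
  have h2 : ∀ y, r y = r x := by
    intro y
    have h3 : r y ^ a = r x ^ a := by
      rw [(div_eq_one_iff_eq hA).1 (h1 y), (div_eq_one_iff_eq hA).1 (h1 x)]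
    exact (pow_left_inj₀ (hr0 y).le (hr0 x).le ha).1 h3
  have h4 : ∫ y, (r y)⁻¹ ∂μ = (r x)⁻¹ := by
    simp only [h2]
    simp
  rw [h4] at hr1
  exact inv_eq_one.1 hr1

/-- the form used in the equality case -/
theorem ck_zero_of {k : ℕ} (hk : 2 ≤ k) {X : Type*} (m : MeasurableSpace X) (μ : Measure X)
    [IsProbabilityMeasure μ] (U : Sym2 X → ℝ) (κ η : ℝ) (hU : Ker μ U κ η)
    (hμ : ∀ x, μ {x} ≠ 0) (h : ck μ U k = 0) (e : Sym2 X) : U e = 0 :=
  ck_zero μ hU.good (fun x => ENNReal.toReal_pos (hμ x) (measure_ne_top μ _)) hk h e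

end

end H559

end Vale.Agent.P050.Opt
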