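import Vale.Agent.P050.O.H300.Defs
import Vale.Agent.P050.R2.H612.Forest
import Vale.Agent.P050.R2.H559.Marks

set_option linter.all false

/-!
Dense targets, optimal order: the integrals of the shapes with marks, from the bound of the shapes
without marks.
-/

open MeasureTheory Finset

namespace Vale.Agent.P050.Opt

open Vale.Agent.P050 Vale.Agent.P050.Dense

namespace H559

section graph

variable {V : Type*} [Fintype V] [DecidableEq V]

/-- the edges of the path -/
def PE (a : V) : List V → Finset (Sym2 V)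
  | [] => ∅
  | w :: L => insert s(hd a L, w) (PE a L)

lemma hd_mem (a : V) (L : List V) : hd a L ∈ vs a L := by
  cases L with
  | nil => simp [hd, vs]
  | cons w L => simp [hd, vs]

lemma fst_mem (a : V) (L : List V) : a ∈ vs a L := mem_insert_self _ _

lemma vs_cons (a w : V) (L : List V) : vs a (w :: L) = insert w (vs a L) := by
  unfold vs
  rw [List.toFinset_cons, Finset.insert_comm]

lemma notMem_vs {a w : V} {L : List V} (nd : ((w :: L) ++ [a]).Nodup) : w ∉ vs a L := by
  rw [List.cons_append, List.nodup_cons] at nd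
  intro h
  apply nd.1
  rcases mem_insert.mp h with rfl | h
  · simp
  · exact List.mem_append_left _ (List.mem_toFinset.mp h)

lemma nd_tail {a w : V} {L : List V} (nd : ((w :: L) ++ [a]).Nodup) : (L ++ [a]).Nodup := by
  rw [List.cons_append, List.nodup_cons] at nd
  exact nd.2

lemma PE_sub (a : V) : ∀ (L : List V), ∀ e ∈ PE a L, ∀ v ∈ e, v ∈ vs a L
  | [], e, he, v, hv => absurd he (Finset.notMem_empty e)
  | w :: L, e, he, v, hv => by
    rw [vs_cons]
    rcases mem_insert.mp he with rfl | he
    · rcases Sym2.mem_iff.mp hv with rfl | rfl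
      · exact mem_insert_of_mem (hd_mem a L)
      · exact mem_insert_self _ _
    · exact mem_insert_of_mem (PE_sub a L e he v hv)

lemma reach (a : V) : ∀ (L : List V), (L ++ [a]).Nodup → ∀ v ∈ vs a L,
    (gr (PE a L)).Reachable a v
  | [], _, v, hv => by
    simp only [vs, List.toFinset_nil, insert_empty_eq, mem_singleton] at hv
    rw [hv]
  | w :: L, nd, v, hv => by
    rw [vs_cons] at hv
    have hm : gr (PE a L) ≤ gr (PE a (w :: L)) := gr_mono (subset_insert _ _)
    have ih := reach a L (nd_tail nd)
    rcases mem_insert.mp hv with rfl | hv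
    · refine ((ih _ (hd_mem a L)).mono hm).trans (SimpleGraph.Adj.reachable ?_)
      rw [gr_adj]
      refine ⟨mem_insert_self _ _, ?_⟩
      intro e
      exact notMem_vs nd (e ▸ hd_mem a L)
    · exact (ih v hv).mono hm

lemma card_vs (a : V) : ∀ (L : List V), (L ++ [a]).Nodup → (vs a L).card = L.length + 1
  | [], _ => by simp [vs]
  | w :: L, nd => by
    rw [vs_cons, card_insert_of_notMem (notMem_vs nd), card_vs a L (nd_tail nd),
      List.length_cons]

lemma hd_ne {a : V} {L : List V} (nd : (L ++ [a]).Nodup) (hL : L ≠ []) : hd a L ≠ a := by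
  cases L with
  | nil => exact absurd rfl hL
  | cons w L =>
    intro h
    exact notMem_vs nd (h ▸ fst_mem a L)

end graph

section kernel

variable {V : Type*} [Fintype V] [DecidableEq V] {Ω : Type*} [MeasurableSpace Ω]
variable {U : Sym2 Ω → ℝ} {R : V → Ω → ℝ} {κ η : ℝ}

lemma pU_eq (a : V) (z : V → Ω) : ∀ (L : List V), (L ++ [a]).Nodup →
    pU U a L z = wt U (PE a L) z
  | [], _ => by simp [pU, wt, PE]
  | w :: L, nd => by
    have h : s(hd a L, w) ∉ PE a L := fun h =>
      notMem_vs nd (PE_sub a L _ h w (Sym2.mem_mk_right _ _))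
    unfold pU PE wt
    rw [prod_insert h, pU_eq a z L (nd_tail nd)]
    rfl

variable (μ : Measure Ω) [IsProbabilityMeasure μ]

/-- Cauchy-Schwarz on the probability space -/
lemma cs1 {f g : Ω → ℝ} (hf : BM f) (hg : BM g) :
    |∫ s, f s * g s ∂μ| ≤ √(∫ s, f s ^ 2 ∂μ) * √(∫ s, g s ^ 2 ∂μ) := by
  apply Vale.Agent.P050.R2.H559.Marks.opt (integral_nonneg fun _ => sq_nonneg _)
    (integral_nonneg fun _ => sq_nonneg _)
  intro t ht
  have hpt : ∀ s, |f s * g s| ≤ 1 / 2 * (t * f s ^ 2 + t⁻¹ * g s ^ 2) := by
    intro s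
    rw [abs_mul]
    have h2 : 0 ≤ t * (|f s| - t⁻¹ * |g s|) ^ 2 := by (clear * - ht; positivity)
    have h3 : t * (|f s| - t⁻¹ * |g s|) ^ 2 =
        t * |f s| ^ 2 + t⁻¹ * |g s| ^ 2 - 2 * (|f s| * |g s|) := by
      have := ht.ne'
      field_simp
      ring
    rw [h3, sq_abs, sq_abs] at h2
    linarith only [h2]
  calc |∫ s, f s * g s ∂μ| ≤ ∫ s, |f s * g s| ∂μ := abs_integral_le_integral_abs
    _ ≤ ∫ s, 1 / 2 * (t * f s ^ 2 + t⁻¹ * g s ^ 2) ∂μ :=
        integral_mono ((hf.mul hg).abs.integrable _)
          (((BM.const _).mul (((BM.const _).mul (hf.pow 2)).add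
            ((BM.const _).mul (hg.pow 2)))).integrable _) hpt
    _ = _ := by
        rw [integral_const_mul, integral_add, integral_const_mul, integral_const_mul]
        · exact ((BM.const _).mul (hf.pow 2)).integrable _
        · exact ((BM.const _).mul (hg.pow 2)).integrable _

/-- the conditional expectation with respect to one coordinate -/
noncomputable def Ex (x : V) (Y : (V → Ω) → ℝ) (s : Ω) : ℝ :=
  ∫ z, Y (Function.update z x s) ∂(piM V μ)

lemma bm_Ex (x : V) {Y : (V → Ω) → ℝ} (hY : BM Y) : BM (Ex μ x Y) := by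
  have h : BM (fun p : Ω × (V → Ω) => Y (Function.update p.2 x p.1)) :=
    hY.comp (g := fun p : Ω × (V → Ω) => Function.update p.2 x p.1)
      ((measurable_upd x).comp measurable_swap)
  exact h.integral_right (piM V μ)

lemma int_Ex (x : V) {Y : (V → Ω) → ℝ} (hY : BM Y) {g : Ω → ℝ} (hg : BM g) :
    ∫ z, g (z x) * Y z ∂(piM V μ) = ∫ s, g s * Ex μ x Y s ∂μ := by
  have hgx : BM (fun z : V → Ω => g (z x)) := hg.comp (measurable_pi_apply x)
  rw [integral_update μ x (hgx.mul hY)]
  simp only [Function.update_self]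
  have h : BM (Function.uncurry fun (z : V → Ω) (s : Ω) => g s * Y (Function.update z x s)) := by
    have h1 : BM (fun p : (V → Ω) × Ω => g p.2) := hg.comp measurable_snd
    have h2 : BM (fun p : (V → Ω) × Ω => Y (Function.update p.1 x p.2)) :=
      hY.comp (measurable_upd x)
    exact h1.mul h2
  rw [integral_integral_swap (h.integrable _)]
  refine integral_congr_ae (Filter.Eventually.of_forall fun s => ?_)
  show ∫ z, g s * Y (Function.update z x s) ∂(piM V μ) = g s * Ex μ x Y s
  rw [integral_const_mul]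
  rfl

/-- one mark: the second moment of the conditional expectation -/
lemma one_mark_gen (x : V) {Y : (V → Ω) → ℝ} (hY : BM Y) {g : Ω → ℝ} (hg : BM g) {M T : ℝ}
    (hM : ∀ s, |Ex μ x Y s| ≤ M)
    (hT : ∀ σ : Ω → ℝ, BM σ → (∀ s, |σ s| ≤ 1) → ∫ z, σ (z x) * Y z ∂(piM V μ) ≤ T) :
    |∫ z, g (z x) * Y z ∂(piM V μ)| ≤ √((∫ s, g s ^ 2 ∂μ) * M * T) := by
  classical
  have hE := bm_Ex μ x hY
  have hM0 : 0 ≤ M := by
    obtain ⟨s⟩ : Nonempty Ω := by
      by_contra hne
      rw [not_nonempty_iff] at hne
      have h1 : (Set.univ : Set Ω) = ∅ := Set.univ_eq_empty_iff.mpr hne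
      have h2 : μ Set.univ = 1 := measure_univ
      rw [h1, measure_empty] at h2
      exact zero_ne_one h2
    exact (abs_nonneg _).trans (hM s)
  have h1 : ∫ s, |Ex μ x Y s| ∂μ ≤ T := by
    set σ : Ω → ℝ := fun s => if 0 ≤ Ex μ x Y s then 1 else -1 with hσ
    have hσm : BM σ := by
      refine ⟨Measurable.ite (measurableSet_le measurable_const hE.meas) measurable_const
        measurable_const, 1, fun s => ?_⟩
      simp only [hσ]
      split_ifs <;> simp
    have hσ1 : ∀ s, |σ s| ≤ 1 := by
      intro s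
      simp only [hσ]
      split_ifs <;> simp
    have h2 := hT σ hσm hσ1
    rw [int_Ex μ x hY hσm] at h2
    refine le_trans (le_of_eq ?_) h2
    refine integral_congr_ae (Filter.Eventually.of_forall fun s => ?_)
    show |Ex μ x Y s| = σ s * Ex μ x Y s
    simp only [hσ]
    split_ifs with h
    · rw [abs_of_nonneg h, one_mul]
    · rw [abs_of_neg (not_le.mp h)]; ring
  have h2 : ∫ s, Ex μ x Y s ^ 2 ∂μ ≤ M * T := by
    calc ∫ s, Ex μ x Y s ^ 2 ∂μ ≤ ∫ s, M * |Ex μ x Y s| ∂μ := by
          refine integral_mono ((hE.pow 2).integrable _)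
            (((BM.const M).mul hE.abs).integrable _) fun s => ?_
          show Ex μ x Y s ^ 2 ≤ M * |Ex μ x Y s|
          rw [← sq_abs, sq]
          exact mul_le_mul_of_nonneg_right (hM s) (abs_nonneg _)
      _ = M * ∫ s, |Ex μ x Y s| ∂μ := integral_const_mul _ _
      _ ≤ M * T := mul_le_mul_of_nonneg_left h1 hM0
  rw [int_Ex μ x hY hg]
  refine (cs1 μ hg hE).trans ?_
  rw [← Real.sqrt_mul (integral_nonneg fun _ => sq_nonneg _)]
  apply Real.sqrt_le_sqrt
  rw [mul_assoc]
  exact mul_le_mul_of_nonneg_left h2 (integral_nonneg fun _ => sq_nonneg _)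

/-- the function of a shape without its marks -/
noncomputable def YY (U : Sym2 Ω → ℝ) (a : V) (L : List V) (B : Option (Option V)) (S : Finset V)
    (h : V → Ω → ℝ) (z : V → Ω) : ℝ :=
  pU U a L z * bc U a B z * (∏ x ∈ S, U s(z x, z (hd a L))) * ∏ x ∈ vs a L, h x (z x)

lemma bm_bc (hU : Good U 1) (a : V) (B : Option (Option V)) :
    BM (bc U a B : (V → Ω) → ℝ) := by
  match B with
  | none => exact BM.const 1
  | some none => exact BM.const 1
  | some (some c) => exact hU.bm_edge (V := V) s(a, c)

lemma abs_bc_le (hU : Good U 1) (a : V) (B : Option (Option V)) (z : V → Ω) :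
    |bc U a B z| ≤ 1 := by
  match B with
  | none => show |(1:ℝ)| ≤ 1; simp
  | some none => show |(1:ℝ)| ≤ 1; simp
  | some (some c) => exact hU.bdd _

lemma bm_chords (hU : Good U 1) (S : Finset V) (u : V) :
    BM (fun z : V → Ω => ∏ x ∈ S, U s(z x, z u)) :=
  BM.finprod S fun x _ => hU.bm_edge (V := V) s(x, u)

lemma abs_chords_le (hU : Good U 1) (S : Finset V) (u : V) (z : V → Ω) :
    |∏ x ∈ S, U s(z x, z u)| ≤ 1 := by
  rw [Finset.abs_prod]
  exact Finset.prod_le_one (fun _ _ => abs_nonneg _) fun x _ => hU.bdd _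

lemma bm_ones {h : V → Ω → ℝ} (hh : ∀ v, BM (h v)) (X : Finset V) :
    BM (fun z : V → Ω => ∏ x ∈ X, h x (z x)) :=
  BM.finprod X fun x _ => (hh x).comp (measurable_pi_apply x)

lemma abs_ones_le {h : V → Ω → ℝ} (h1 : ∀ v s, |h v s| ≤ 1) (X : Finset V) (z : V → Ω) :
    |∏ x ∈ X, h x (z x)| ≤ 1 := by
  rw [Finset.abs_prod]
  exact Finset.prod_le_one (fun _ _ => abs_nonneg _) fun x _ => h1 x _

variable {a : V} {L : List V} {B : Option (Option V)} {S : Finset V} {h : V → Ω → ℝ}

lemma bm_pU (hU : Good U 1) (nd : (L ++ [a]).Nodup) : BM (pU U a L : (V → Ω) → ℝ) := by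
  have : (pU U a L : (V → Ω) → ℝ) = wt U (PE a L) := funext fun z => pU_eq a z L nd
  rw [this]
  exact hU.bm_wt _

lemma bm_YY (hU : Good U 1) (nd : (L ++ [a]).Nodup) (hh : ∀ v, BM (h v)) :
    BM (YY U a L B S h : (V → Ω) → ℝ) :=
  (((bm_pU hU nd).mul (bm_bc hU a B)).mul (bm_chords hU S (hd a L))).mul (bm_ones hh (vs a L))

lemma abs_YY_le (hU : Good U 1) (nd : (L ++ [a]).Nodup) (h1 : ∀ v s, |h v s| ≤ 1)
    (z : V → Ω) : |YY U a L B S h z| ≤ ∏ e ∈ PE a L, |U (e.map z)| := by
  unfold YY
  rw [pU_eq a z L nd, abs_mul, abs_mul, abs_mul]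
  have e : |wt U (PE a L) z| = ∏ e ∈ PE a L, |U (e.map z)| := by
    unfold wt
    rw [Finset.abs_prod]
  rw [e]
  have h0 : 0 ≤ ∏ e ∈ PE a L, |U (e.map z)| := Finset.prod_nonneg fun _ _ => abs_nonneg _
  have k1 := mul_le_mul_of_nonneg_left (abs_bc_le hU a B z) h0
  rw [mul_one] at k1
  have n1 := mul_nonneg h0 (abs_nonneg (bc U a B z))
  have k2 := mul_le_mul_of_nonneg_left (abs_chords_le hU S (hd a L) z) n1
  rw [mul_one] at k2
  have n2 := mul_nonneg n1 (abs_nonneg (∏ x ∈ S, U s(z x, z (hd a L))))
  have k3 := mul_le_mul_of_nonneg_left (abs_ones_le h1 (vs a L) z) n2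
  rw [mul_one] at k3
  exact k3.trans (k2.trans k1)

/-- the conditional expectation of a shape is small -/
lemma abs_Ex_le (hU : Ker μ U κ η) (nd : (L ++ [a]).Nodup) (hh : ∀ v, BM (h v))
    (h1 : ∀ v s, |h v s| ≤ 1) {x : V} (hx : x ∈ vs a L) (s : Ω) :
    |Ex μ x (YY U a L B S h) s| ≤ κ ^ L.length := by
  have hr : ∀ v ∈ vs a L, ∃ r ∈ ({x} : Finset V), (gr (PE a L)).Reachable r v := fun v hv =>
    ⟨x, mem_singleton_self x, (reach a L nd x hx).symm.trans (reach a L nd v hv)⟩
  have h2 := forest μ hU (PE_sub a L) hr (fun _ => s)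
  have h3 : (vs a L \ {x}).card = L.length := by
    rw [card_sdiff_of_subset (singleton_subset_iff.mpr hx), card_singleton, card_vs a L nd,
      Nat.add_sub_cancel]
  rw [h3] at h2
  refine le_trans ?_ h2
  unfold Ex
  have hYs : BM (fun z : V → Ω => YY U a L B S h (Function.update z x s)) :=
    (bm_YY hU.good nd hh).comp (g := fun z : V → Ω => Function.update z x s)
      ((measurable_upd x).comp measurable_prodMk_right)
  have hPs : BM (fun z : V → Ω => ∏ e ∈ PE a L,
      |U (e.map (fun v => if v ∈ vs a L \ {x} then z v else s))|) := by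
    have hm : Measurable (fun z : V → Ω => fun v => if v ∈ vs a L \ {x} then z v else s) := by
      rw [measurable_pi_iff]
      intro v
      by_cases hv : v ∈ vs a L \ {x}
      · simp only [hv, if_true]; exact measurable_pi_apply v
      · simp only [hv, if_false]; exact measurable_const
    exact (BM.finprod (PE a L) fun e _ => (hU.good.bm_edge (V := V) e).abs).comp hm
  refine abs_integral_le_integral_abs.trans
    (integral_mono (hYs.abs.integrable _) (hPs.integrable _) fun z => ?_)
  refine (abs_YY_le hU.good nd h1 _).trans (le_of_eq ?_)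
  refine Finset.prod_congr rfl fun e he => ?_
  have : e.map (Function.update z x s) =
      e.map (fun v => if v ∈ vs a L \ {x} then z v else s) := by
    apply Sym2.map_congr
    intro v hv
    by_cases hvx : v = x
    · subst hvx
      rw [Function.update_self, if_neg (by simp)]
    · rw [Function.update_of_ne hvx, if_pos (by
        rw [mem_sdiff, mem_singleton]
        exact ⟨PE_sub a L e he v hv, hvx⟩)]
  rw [this]

/-- one mark -/
theorem one_mark (hU : Ker μ U κ η) (nd : (L ++ [a]).Nodup) (hh : ∀ v, BM (h v))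
    (h1 : ∀ v s, |h v s| ≤ 1) {x : V} (hx : x ∈ vs a L) {g : Ω → ℝ} (hg : BM g) {T : ℝ}
    (hT : ∀ h' : V → Ω → ℝ, (∀ v, BM (h' v)) → (∀ v s, |h' v s| ≤ 1) →
      |∫ z, YY U a L B S h' z ∂(piM V μ)| ≤ T) :
    |∫ z, g (z x) * YY U a L B S h z ∂(piM V μ)| ≤
      √((∫ s, g s ^ 2 ∂μ) * κ ^ L.length * T) := by
  refine one_mark_gen μ x (bm_YY hU.good nd hh) hg
    (fun s => abs_Ex_le μ hU nd hh h1 hx s) ?_
  intro σ hσ hσ1
  have h3 := hT (Function.update h x fun s => σ s * h x s)
    (fun v => by
      by_cases hv : v = x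
      · subst hv; rw [Function.update_self]; exact hσ.mul (hh v)
      · rw [Function.update_of_ne hv]; exact hh v)
    (fun v s => by
      by_cases hv : v = x
      · subst hv; rw [Function.update_self, abs_mul]
        calc |σ s| * |h v s| ≤ 1 * 1 :=
              mul_le_mul (hσ1 s) (h1 v s) (abs_nonneg _) zero_le_one
          _ = 1 := one_mul 1
      · rw [Function.update_of_ne hv]; exact h1 v s)
  refine le_trans (le_of_eq ?_) ((le_abs_self _).trans h3)
  refine integral_congr_ae (Filter.Eventually.of_forall fun z => ?_)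
  show σ (z x) * YY U a L B S h z = YY U a L B S _ z
  unfold YY
  rw [← mul_prod_erase (vs a L) (fun y => h y (z y)) hx,
    ← mul_prod_erase (vs a L) (fun y => Function.update h x (fun s => σ s * h x s) y (z y)) hx]
  have e : ∏ y ∈ (vs a L).erase x, Function.update h x (fun s => σ s * h x s) y (z y) =
      ∏ y ∈ (vs a L).erase x, h y (z y) := by
    refine Finset.prod_congr rfl fun y hy => ?_
    rw [Function.update_of_ne (ne_of_mem_erase hy)]
  rw [e, Function.update_self]
  ring

variable (H : SimpleGraph V) [DecidableRel H.Adj]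

/-- the bound of the shapes without marks, as a hypothesis -/
def GLP (U : Sym2 Ω → ℝ) (κ : ℝ) : Prop :=
  ∀ {a : V} {L : List V} {B : Option (Option V)} {S : Finset V} {b : Bool},
    Shape H a L B S b → ((∃ c, B = some (some c)) ∨ S.Nonempty) → ∀ {h : V → Ω → ℝ},
    (∀ v, BM (h v)) → (∀ v s, |h v s| ≤ 1) →
    |∫ z, pU U a L z * bc U a B z * (∏ x ∈ S, U s(z x, z (hd a L))) *
      ∏ x ∈ vs a L, h x (z x) ∂(piM V μ)| ≤
      κ ^ (L.length + 1 - 2 * gk a L B S) * ck μ U (gk a L B S)

/-- B2, with B1 as a hypothesis -/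
theorem tb_of_glp (hU : Ker μ U κ η) (hR : One μ R) (hg : GLP μ H U κ) :
    TB H μ U R (fun q => TT3 μ U R κ q.1 q.2.1 q.2.2.1 q.2.2.2.1 q.2.2.2.2) := by
  rintro ⟨a, L, B, S, b⟩ hs h hh h1
  simp only at hs ⊢
  have nd := hs.nd
  by_cases hB : B = some none
  · subst hB
    cases b with
    | true =>
      -- two marks
      have hX := card_vs a L nd
      have key := Vale.Agent.P050.R2.H559.Marks.mark_mark μ hU.good hU.κ0 hU.l1
        (X := vs a L) (a := a) (b := hd a L) (fst_mem a L) (hd_mem a L)
        (F := PE a L) (PE_sub a L) (reach a L nd) (hR.bm a) (hR.bm (hd a L))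
        (R := fun z => (∏ x ∈ S, U s(z x, z (hd a L))) * ∏ x ∈ vs a L, h x (z x)) (C := 1)
        ((bm_chords hU.good S (hd a L)).mul (bm_ones hh (vs a L))) zero_le_one
        (fun z => by
          rw [abs_mul]
          calc _ ≤ (1:ℝ) * 1 := mul_le_mul (abs_chords_le hU.good S (hd a L) z)
                (abs_ones_le h1 (vs a L) z) (abs_nonneg _) zero_le_one
            _ = 1 := one_mul 1)
      rw [hX, Nat.add_sub_cancel, one_mul] at key
      unfold TT3
      rw [if_pos ⟨rfl, rfl⟩]
      refine le_trans (le_of_eq ?_) (key.trans (le_of_eq ?_))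
      · congr 1
        refine integral_congr_ae (Filter.Eventually.of_forall fun z => ?_)
        show psi U R a L (some none) S true z * ∏ x ∈ vs a L, h x (z x) = _
        unfold psi bf cl
        rw [pU_eq a z L nd]
        simp only [if_true]
        ring
      · unfold rr
        ring
    | false =>
      have hS : S.Nonempty := by
        have := hs.one
        simp only [Bool.false_eq_true, if_false, add_zero] at this
        exact card_pos.mp (by omega)
      have key := one_mark μ (B := some none) (S := S) hU nd hh h1 (fst_mem a L) (hR.bm a)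
        (T := κ ^ (L.length + 1 - 2 * gk a L (some none) S) * ck μ U (gk a L (some none) S))
        (fun h' hh' h1' => hg hs (Or.inr hS) hh' h1')
      unfold TT3
      rw [if_neg (by simp), if_pos rfl]
      refine le_trans (le_of_eq ?_) key
      congr 1
      refine integral_congr_ae (Filter.Eventually.of_forall fun z => ?_)
      show psi U R a L (some none) S false z * ∏ x ∈ vs a L, h x (z x) = _
      unfold psi bf cl YY bc
      simp only [Bool.false_eq_true, if_false]
      ring
  · have hbf : ∀ z, bf U R a B z = bc U a B z := by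
      intro z
      match B, hB with
      | none, _ => rfl
      | some none, hB => exact absurd rfl hB
      | some (some c), _ => rfl
    cases b with
    | true =>
      have hc : (∃ c, B = some (some c)) ∨ S.Nonempty := by
        have h2 := hs.two
        match B, hB, h2 with
        | none, _, h2 =>
          right
          simp only [if_true] at h2
          exact card_pos.mp (by omega)
        | some none, hB, _ => exact absurd rfl hB
        | some (some c), _, _ => exact Or.inl ⟨c, rfl⟩
      have key := one_mark μ (B := B) (S := S) hU nd hh h1 (hd_mem a L) (hR.bm (hd a L))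
        (T := κ ^ (L.length + 1 - 2 * gk a L B S) * ck μ U (gk a L B S))
        (fun h' hh' h1' => hg hs hc hh' h1')
      unfold TT3
      rw [if_neg (by simp [hB]), if_neg hB, if_pos rfl]
      refine le_trans (le_of_eq ?_) key
      congr 1
      refine integral_congr_ae (Filter.Eventually.of_forall fun z => ?_)
      show psi U R a L B S true z * ∏ x ∈ vs a L, h x (z x) = _
      unfold psi cl YY
      rw [hbf z]
      simp only [if_true]
      ring
    | false =>
      have hS : S.Nonempty := by
        have := hs.one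
        simp only [Bool.false_eq_true, if_false, add_zero] at this
        exact card_pos.mp (by omega)
      have key := hg hs (Or.inr hS) hh h1
      unfold TT3
      rw [if_neg (by simp [hB]), if_neg hB, if_neg (by simp)]
      refine le_trans (le_of_eq ?_) key
      congr 1
      refine integral_congr_ae (Filter.Eventually.of_forall fun z => ?_)
      show psi U R a L B S false z * ∏ x ∈ vs a L, h x (z x) = _
      unfold psi cl
      rw [hbf z]
      simp only [Bool.false_eq_true, if_false, mul_one]

end kernel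

end H559

end Vale.Agent.P050.Opt
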