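import Vale.Agent.P050.O.H738.Pos

set_option linter.all false

/-!
Dense targets, optimal order: the bound of a shape by positions, from the four cases (two segments,
cycle at the beginning, cycle at the end, theta graph).
-/

open MeasureTheory Finset

namespace Vale.Agent.P050.Opt

open Vale.Agent.P050 Vale.Agent.P050.Dense

namespace H559

lemma mem_KK {M : ℕ} {B : Option ℕ} {T : Finset ℕ} {c : ℕ × ℕ} :
    c ∈ KK M B T ↔ (∃ i, B = some i ∧ c = (0, i)) ∨ ∃ s ∈ T, c = (s, M) := by
  unfold KK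
  rw [mem_union, mem_image]
  constructor
  · rintro (h | ⟨s, hs, rfl⟩)
    · match B, h with
      | none, h => exact absurd h (notMem_empty c)
      | some i, h => exact Or.inl ⟨i, rfl, mem_singleton.mp h⟩
    · exact Or.inr ⟨s, hs, rfl⟩
  · rintro (⟨i, rfl, rfl⟩ | ⟨s, hs, rfl⟩)
    · exact Or.inl (mem_singleton_self _)
    · exact Or.inr ⟨s, hs, rfl⟩

lemma ends {M : ℕ} {B : Option ℕ} {T : Finset ℕ} {P : ℕ → Prop} (h0 : P 0)
    (hi : ∀ i, B = some i → P i) (hs : ∀ s ∈ T, P s) (hM : P M) :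
    ∀ c ∈ KK M B T, ∀ x, (x = c.1 ∨ x = c.2) → P x := by
  intro c hc x hx
  rcases mem_KK.mp hc with ⟨i, hB, rfl⟩ | ⟨s, hsT, rfl⟩
  · rcases hx with rfl | rfl
    · exact h0
    · exact hi _ hB
  · rcases hx with rfl | rfl
    · exact hs _ hsT
    · exact hM

lemma top {T : Finset ℕ} (hT : T.Nonempty) : ∃ s ∈ T, ∀ x ∈ T, x ≤ s :=
  ⟨T.max' hT, T.max'_mem hT, fun x hx => T.le_max' x hx⟩

variable {V : Type*} [Fintype V] [DecidableEq V] {Ω : Type*} [MeasurableSpace Ω]
variable (μ : Measure Ω) [IsProbabilityMeasure μ] {U : Sym2 Ω → ℝ} {κ : ℝ}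

/-- `pos_bound`, with the four cases as hypotheses -/
theorem pos_bound_of {f : ℕ → V} {M : ℕ} {B : Option ℕ} {T : Finset ℕ} {k : ℕ}
    (seg2 : ∀ {t1 t2 : ℕ}, t1 + k ≤ t2 → t2 + k ≤ M →
      (∀ c ∈ KK M B T, ∀ x, (x = c.1 ∨ x = c.2) →
        ¬ (t1 < x ∧ x < t1 + k) ∧ ¬ (t2 < x ∧ x < t2 + k)) →
      (∃ c ∈ KK M B T, c.1 ≤ t1 ∧ t1 < c.2) → (∃ c ∈ KK M B T, c.1 < t2 + k ∧ t2 + k ≤ c.2) →
      Bd μ U κ f M (KK M B T) k)
    (cyc0 : ∀ {i : ℕ}, 2 * k ≤ i + 1 → (0, i) ∈ KK M B T →
      (∀ c ∈ KK M B T, c ≠ (0, i) → i ≤ c.1) → Bd μ U κ f M (KK M B T) k)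
    (cycM : ∀ {s : ℕ}, s + 2 * k ≤ M + 1 → (s, M) ∈ KK M B T →
      (∀ c ∈ KK M B T, c ≠ (s, M) → c.2 ≤ s) → Bd μ U κ f M (KK M B T) k)
    (theta : ∀ {s i : ℕ}, KK M B T = {(0, i), (s, M)} → s < i → i < M → 2 * k ≤ i + 1 →
      s + 2 * k ≤ M + 1 → 2 * k + i ≤ s + M + 2 → Bd μ U κ f M (KK M B T) k)
    (hg : Gir M B T k) (hne : B ≠ none ∨ T.Nonempty) :
    Bd μ U κ f M (KK M B T) k := by
  have hk := hg.hk
  have hin : ∀ s ∈ T, (s, M) ∈ KK M B T := fun s hs => mem_KK.mpr (Or.inr ⟨s, hs, rfl⟩)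
  -- two segments which start at `t1` and at `t2`
  have sg : ∀ {t1 t2 : ℕ}, t1 + k ≤ t2 → t2 + k ≤ M →
      (∀ i, B = some i → ¬ (t1 < i ∧ i < t1 + k) ∧ ¬ (t2 < i ∧ i < t2 + k)) →
      (∀ s ∈ T, ¬ (t1 < s ∧ s < t1 + k) ∧ ¬ (t2 < s ∧ s < t2 + k)) →
      (∃ c ∈ KK M B T, c.1 ≤ t1 ∧ t1 < c.2) → (∃ c ∈ KK M B T, c.1 < t2 + k ∧ t2 + k ≤ c.2) →
      Bd μ U κ f M (KK M B T) k := by
    intro t1 t2 h1 h2 hi hs hA hC
    refine seg2 h1 h2 (ends (P := fun x => ¬ (t1 < x ∧ x < t1 + k) ∧
      ¬ (t2 < x ∧ x < t2 + k)) ?_ hi hs ?_) hA hC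
    · constructor <;> omega
    · constructor <;> omega
  rcases T.eq_empty_or_nonempty with hT | hT
  · -- no fan
    rcases hne with hB | hT'
    · obtain ⟨i, rfl⟩ := Option.ne_none_iff_exists'.mp hB
      refine cyc0 (hg.g3 i rfl) (mem_KK.mpr (Or.inl ⟨i, rfl, rfl⟩)) ?_
      intro c hc hci
      rcases mem_KK.mp hc with ⟨j, hj, rfl⟩ | ⟨s, hs, rfl⟩
      · rw [Option.some.injEq] at hj
        exact absurd (by rw [hj]) hci
      · rw [hT] at hs
        exact absurd hs (notMem_empty s)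
    · exact absurd hT (Finset.nonempty_iff_ne_empty.mp hT')
  obtain ⟨s1, hs1, hs1m⟩ := top hT
  have g1 := hg.g1 s1 hs1
  rcases (T.erase s1).eq_empty_or_nonempty with hT1 | hT1
  · -- one chord at the end
    have hT' : ∀ s ∈ T, s = s1 := by
      intro s hs
      by_contra hne'
      have := mem_erase.mpr ⟨hne', hs⟩
      rw [hT1] at this
      exact absurd this (notMem_empty s)
    cases hBc : B with
    | none =>
      rw [← hBc]
      refine cycM g1 (hin s1 hs1) ?_
      intro c hc hcs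
      rcases mem_KK.mp hc with ⟨j, hj, rfl⟩ | ⟨s, hs, rfl⟩
      · rw [hBc] at hj
        exact absurd hj (by simp)
      · rw [hT' s hs] at hcs
        exact absurd rfl hcs
    | some i =>
      rw [← hBc]
      have hi2 := hg.B2 i hBc
      by_cases hsi : i ≤ s1
      · refine cyc0 (hg.g3 i hBc) (mem_KK.mpr (Or.inl ⟨i, hBc, rfl⟩)) ?_
        intro c hc hci
        rcases mem_KK.mp hc with ⟨j, hj, rfl⟩ | ⟨s, hs, rfl⟩
        · rw [hBc, Option.some.injEq] at hj
          exact absurd (by rw [hj]) hci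
        · rw [hT' s hs]
          exact hsi
      · refine theta (s := s1) (i := i) ?_ (by omega) (by omega) (hg.g3 i hBc) g1
          (hg.g4 i hBc s1 hs1 (by omega))
        ext c
        rw [mem_KK, mem_insert, mem_singleton]
        constructor
        · rintro (⟨j, hj, rfl⟩ | ⟨s, hs, rfl⟩)
          · rw [hBc, Option.some.injEq] at hj
            rw [hj]
            exact Or.inl rfl
          · rw [hT' s hs]
            exact Or.inr rfl
        · rintro (rfl | rfl)
          · exact Or.inl ⟨i, hBc, rfl⟩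
          · exact Or.inr ⟨s1, hs1, rfl⟩
  obtain ⟨s2, hs2', hs2m⟩ := top hT1
  have hs2 : s2 ∈ T := mem_of_mem_erase hs2'
  have h21 : s2 < s1 := lt_of_le_of_ne (hs1m s2 hs2) (ne_of_mem_erase hs2')
  have g2 := hg.g2 s2 hs2 s1 hs1 h21
  have hm2 : ∀ s ∈ T, s ≤ s2 ∨ s = s1 := by
    intro s hs
    by_cases h : s = s1
    · exact Or.inr h
    · exact Or.inl (hs2m s (mem_erase.mpr ⟨h, hs⟩))
  -- chords for the two sides
  have cA : ∀ t : ℕ, ∀ s ∈ T, s ≤ t → t < M → ∃ c ∈ KK M B T, c.1 ≤ t ∧ t < c.2 :=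
    fun t s hs h1 h2 => ⟨(s, M), hin s hs, h1, h2⟩
  have cC : ∀ t : ℕ, ∀ s ∈ T, s < t + k → t + k ≤ M →
      ∃ c ∈ KK M B T, c.1 < t + k ∧ t + k ≤ c.2 :=
    fun t s hs h1 h2 => ⟨(s, M), hin s hs, h1, h2⟩
  -- the segments `[s2, s2 + k]`, `[s1, s1 + k]`
  have main : (∀ i, B = some i → i ≤ s2 ∨ s2 + k ≤ i ∧ i ≤ s1 ∨ s1 + k ≤ i) →
      Bd μ U κ f M (KK M B T) k := by
    intro hi
    refine sg (t1 := s2) (t2 := s1) (by omega) (by omega) ?_ ?_
      (cA s2 s2 hs2 le_rfl (by omega)) (cC s1 s1 hs1 (by omega) (by omega))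
    · intro i hB
      have := hi i hB
      omega
    · intro s hs
      have := hm2 s hs
      omega
  cases hBc : B with
  | none =>
    rw [← hBc]
    exact main fun i hi => by rw [hBc] at hi; exact absurd hi (by simp)
  | some i =>
    rw [← hBc]
    have hi2 := hg.B2 i hBc
    have g3 := hg.g3 i hBc
    have heq : ∀ j, B = some j → j = i := by
      intro j hj
      rw [hBc, Option.some.injEq] at hj
      exact hj.symm
    have h0i : (0, i) ∈ KK M B T := mem_KK.mpr (Or.inl ⟨i, hBc, rfl⟩)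
    by_cases hA1 : i ≤ s2 ∨ i = s1
    · refine main fun j hj => ?_
      rw [heq j hj]
      omega
    rw [not_or] at hA1
    rcases ((T.erase s1).erase s2).eq_empty_or_nonempty with hT2 | hT2
    · -- exactly two chords at the end
      have hT' : ∀ s ∈ T, s = s1 ∨ s = s2 := by
        intro s hs
        by_contra hne'
        rw [not_or] at hne'
        have := mem_erase.mpr ⟨hne'.2, mem_erase.mpr ⟨hne'.1, hs⟩⟩
        rw [hT2] at this
        exact absurd this (notMem_empty s)
      by_cases hi1 : i < s1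
      · by_cases hik : s2 + k ≤ i
        · refine main fun j hj => ?_
          rw [heq j hj]
          omega
        · -- segments `[0, k]`, `[s1, s1 + k]`
          refine sg (t1 := 0) (t2 := s1) (by omega) (by omega) ?_ ?_
            ⟨(0, i), h0i, le_rfl, by show 0 < i; omega⟩ (cC s1 s1 hs1 (by omega) (by omega))
          · intro j hj
            rw [heq j hj]
            omega
          · intro s hs
            have := hT' s hs
            omega
      · by_cases hMk : i + k ≤ M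
        · -- segments `[s2, s2 + k]`, `[M - k, M]`
          refine sg (t1 := s2) (t2 := M - k) (by omega) (by omega) ?_ ?_
            (cA s2 s2 hs2 le_rfl (by omega)) (cC (M - k) s2 hs2 (by omega) (by omega))
          · intro j hj
            rw [heq j hj]
            omega
          · intro s hs
            have := hT' s hs
            omega
        · refine main fun j hj => ?_
          rw [heq j hj]
          omega
    · -- at least three chords at the end
      obtain ⟨s3, hs3', hs3m⟩ := top hT2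
      have hs3 : s3 ∈ T := mem_of_mem_erase (mem_of_mem_erase hs3')
      have h32 : s3 < s2 := by
        have h1 := ne_of_mem_erase hs3'
        have h2 := ne_of_mem_erase (mem_of_mem_erase hs3')
        have := hm2 s3 hs3
        omega
      have g2' := hg.g2 s3 hs3 s2 hs2 h32
      have hm3 : ∀ s ∈ T, s ≤ s3 ∨ s = s2 ∨ s = s1 := by
        intro s hs
        by_cases h : s = s1
        · exact Or.inr (Or.inr h)
        · by_cases h' : s = s2
          · exact Or.inr (Or.inl h')
          · exact Or.inl (hs3m s (mem_erase.mpr ⟨h', mem_erase.mpr ⟨h, hs⟩⟩))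
      by_cases hi1 : i < s1
      · -- segments `[s3, s3 + k]`, `[s1, s1 + k]`
        refine sg (t1 := s3) (t2 := s1) (by omega) (by omega) ?_ ?_
          (cA s3 s3 hs3 le_rfl (by omega)) (cC s1 s1 hs1 (by omega) (by omega))
        · intro j hj
          rw [heq j hj]
          omega
        · intro s hs
          have := hm3 s hs
          omega
      · -- segments `[s3, s3 + k]`, `[s2, s2 + k]`
        refine sg (t1 := s3) (t2 := s2) (by omega) (by omega) ?_ ?_
          (cA s3 s3 hs3 le_rfl (by omega)) (cC s2 s2 hs2 (by omega) (by omega))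
        · intro j hj
          rw [heq j hj]
          omega
        · intro s hs
          have := hm3 s hs
          omega

end H559

end Vale.Agent.P050.Opt
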