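import Vale.Agent.P050.O.H300.AsmDefs
import Vale.Agent.P050.H398.Ord

set_option linter.all false

/-!
Dense targets, assembled graphs: the law of large numbers for typical sequences.
-/

open MeasureTheory Finset

namespace Vale.Agent.P050.Opt

open Vale.Agent.P050 Vale.Agent.P050.Dense

namespace H559

section

variable {A : Type} [Fintype A] [DecidableEq A] {w : A → ℝ}

lemma prod_one {B : Type} [Fintype B] [DecidableEq B] (h1 : ∑ a, w a = 1) (b : B) (F : A → ℝ) :
    ∑ X : B → A, (∏ b, w (X b)) * F (X b) = ∑ x, w x * F x := by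
  have hι : Function.Injective (fun _ : Unit => b) := fun _ _ _ => rfl
  have h := H398.prod_marginal h1 hι (fun Y => F (Y ()))
  rw [h]
  refine Fintype.sum_equiv (Equiv.funUnique Unit A) _ _ fun Y => ?_
  simp

/-- the second moment of the deviation -/
lemma var_le (h0 : ∀ a, 0 ≤ w a) (h1 : ∑ a, w a = 1) {N : ℕ} (hN : 0 < N) (a : A) :
    ∑ X : Fin N → A, (∏ i, w (X i)) * (emp X a - w a) ^ 2 ≤ 1 / N := by
  classical
  have hNr : (0:ℝ) < N := by exact_mod_cast hN
  set f : A → ℝ := fun x => (if x = a then 1 else 0) - w a with hf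
  have hmean : ∑ x, w x * f x = 0 := by
    simp only [hf, mul_sub, sum_sub_distrib, ← sum_mul, h1]
    simp
  have hsq : ∑ x, w x * (f x * f x) ≤ 1 := by
    have h2 : ∑ x, w x * (f x * f x) ≤ ∑ x, w x * 1 := by
      refine sum_le_sum fun x _ => mul_le_mul_of_nonneg_left ?_ (h0 x)
      have h3 : w a ≤ 1 := by
        rw [← h1]
        exact single_le_sum (fun y _ => h0 y) (mem_univ a)
      have h4 := h0 a
      simp only [hf]
      split_ifs <;> nlinarith
    simpa [h1] using h2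
  have hemp : ∀ X : Fin N → A, emp X a - w a = (∑ i, f (X i)) / N := by
    intro X
    simp only [hf, sum_sub_distrib, emp, card_filter]
    push_cast
    simp only [sum_const, card_univ, Fintype.card_fin, nsmul_eq_mul]
    field_simp
  have h5 : ∀ X : Fin N → A, (∏ i, w (X i)) * (emp X a - w a) ^ 2 =
      (∑ i, ∑ j, (∏ k, w (X k)) * (f (X i) * f (X j))) / N ^ 2 := by
    intro X
    rw [hemp, div_pow, sq (∑ i, f (X i)), sum_mul_sum, mul_div_assoc', mul_sum]
    congr 1
    refine sum_congr rfl fun i _ => ?_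
    rw [mul_sum]
  rw [sum_congr rfl fun X _ => h5 X, ← sum_div, sum_comm]
  have h6 : ∀ i : Fin N, ∑ X : Fin N → A, ∑ j, (∏ k, w (X k)) * (f (X i) * f (X j)) ≤ 1 := by
    intro i
    rw [sum_comm]
    rw [sum_eq_single i]
    · rw [prod_one h1 i fun x => f x * f x]
      exact hsq
    · intro j _ hj
      rw [H398.prod_marginal_two h1 (Ne.symm hj) fun x y => f x * f y]
      have h7 : ∀ x, ∑ y, w x * w y * (f x * f y) = w x * f x * ∑ y, w y * f y := by
        intro x
        rw [mul_sum]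
        exact sum_congr rfl fun y _ => by ring
      simp only [h7, hmean, mul_zero, sum_const_zero]
    · intro hn
      exact absurd (mem_univ _) hn
  have h8 : ∑ i : Fin N, ∑ X : Fin N → A, ∑ j, (∏ k, w (X k)) * (f (X i) * f (X j)) ≤ N := by
    refine (sum_le_sum fun i _ => h6 i).trans ?_
    simp
  rw [div_le_div_iff₀ (by positivity) hNr, one_mul]
  nlinarith

theorem lln (h0 : ∀ a, 0 ≤ w a) (h1 : ∑ a, w a = 1) {δ ε : ℝ} (hδ : 0 < δ) (hε : 0 < ε) :
    ∀ᶠ N : ℕ in Filter.atTop, 1 - ε ≤ ∑ X : Fin N → A, (open scoped Classical in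
      if ∀ a, |emp X a - w a| ≤ δ then ∏ i, w (X i) else 0) := by
  classical
  obtain ⟨N₀, hN₀⟩ := exists_nat_gt ((Fintype.card A : ℝ) / (δ ^ 2 * ε))
  filter_upwards [Filter.eventually_ge_atTop (N₀ + 1)] with N hN
  have hN0 : 0 < N := by omega
  have hNr : (0:ℝ) < N := by exact_mod_cast hN0
  have hNN : (Fintype.card A : ℝ) / (δ ^ 2 * ε) < N := by
    refine hN₀.trans ?_
    exact_mod_cast (by omega : N₀ < N)
  have h2 : ∀ X : Fin N → A, (∏ i, w (X i)) -
      (∑ a, (∏ i, w (X i)) * (emp X a - w a) ^ 2) / δ ^ 2 ≤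
      if ∀ a, |emp X a - w a| ≤ δ then ∏ i, w (X i) else 0 := by
    intro X
    have hw0 : 0 ≤ ∏ i, w (X i) := prod_nonneg fun i _ => h0 _
    have hs0 : 0 ≤ (∑ a, (∏ i, w (X i)) * (emp X a - w a) ^ 2) / δ ^ 2 :=
      div_nonneg (sum_nonneg fun a _ => mul_nonneg hw0 (sq_nonneg _)) (sq_nonneg _)
    split_ifs with h
    · linarith
    · push Not at h
      obtain ⟨a, ha⟩ := h
      rw [sub_nonpos, le_div_iff₀ (by positivity)]
      have h3 : (∏ i, w (X i)) * (emp X a - w a) ^ 2 ≤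
          ∑ a, (∏ i, w (X i)) * (emp X a - w a) ^ 2 :=
        single_le_sum (f := fun a => (∏ i, w (X i)) * (emp X a - w a) ^ 2)
          (fun a _ => mul_nonneg hw0 (sq_nonneg _)) (mem_univ a)
      refine le_trans (mul_le_mul_of_nonneg_left ?_ hw0) h3
      rw [← sq_abs (emp X a - w a)]
      exact pow_le_pow_left₀ hδ.le ha.le 2
  refine le_trans ?_ (sum_le_sum fun X _ => h2 X)
  rw [sum_sub_distrib, ← sum_div, sum_comm, H398.prod_total h1]
  have h4 : ∑ a, ∑ X : Fin N → A, (∏ i, w (X i)) * (emp X a - w a) ^ 2 ≤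
      (Fintype.card A : ℝ) * (1 / N) := by
    refine (sum_le_sum fun a _ => var_le h0 h1 hN0 a).trans ?_
    simp
  have h5 : (∑ a, ∑ X : Fin N → A, (∏ i, w (X i)) * (emp X a - w a) ^ 2) / δ ^ 2 ≤ ε := by
    rw [div_le_iff₀ (by positivity)]
    refine h4.trans ?_
    rw [mul_one_div, div_le_iff₀ hNr]
    rw [div_lt_iff₀ (by positivity)] at hNN
    nlinarith
  linarith

end

section

variable {Ω : Type} [Fintype Ω] [DecidableEq Ω] {w : Ω → ℝ} {U : Sym2 Ω → ℝ}

lemma sum_right {N : ℕ} (hw : Wt w U) (X : Fin N → Ω) :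
    ∑ Y : Fin N → Ω, ∏ i, (w (X i) * w (Y i) * (1 + U s(X i, Y i))) = ∏ i, w (X i) := by
  have h := Finset.prod_univ_sum (fun _ : Fin N => (univ : Finset Ω))
    (fun i y => w (X i) * w y * (1 + U s(X i, y)))
  rw [Fintype.piFinset_univ] at h
  rw [← h]
  refine prod_congr rfl fun i _ => ?_
  have h2 : ∀ y, w (X i) * w y * (1 + U s(X i, y)) =
      w (X i) * (w y + w y * U s(X i, y)) := fun y => by ring
  simp only [h2]
  rw [← mul_sum, sum_add_distrib, hw.sum, hw.marg, add_zero, mul_one]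

theorem pair_typ (hw : Wt w U) {δ : ℝ} (hδ : 0 < δ) :
    ∀ᶠ N : ℕ in Filter.atTop, (1 / 2 : ℝ) ≤ ∑ X : Fin N → Ω, ∑ Y : Fin N → Ω,
      (open scoped Classical in
        if (∀ s, |emp X s - w s| ≤ δ) ∧ ∀ s, |emp Y s - w s| ≤ δ
        then ∏ i, (w (X i) * w (Y i) * (1 + U s(X i, Y i))) else 0) := by
  classical
  filter_upwards [lln (fun s => (hw.pos s).le) hw.sum hδ (by norm_num : (0:ℝ) < 1 / 4)]
    with N hN
  set q : (Fin N → Ω) → (Fin N → Ω) → ℝ :=
    fun X Y => ∏ i, (w (X i) * w (Y i) * (1 + U s(X i, Y i))) with hq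
  set T : (Fin N → Ω) → ℝ := fun X => if ∀ s, |emp X s - w s| ≤ δ then 1 else 0 with hT
  have hq0 : ∀ X Y, 0 ≤ q X Y := fun X Y => prod_nonneg fun i _ =>
    mul_nonneg (mul_nonneg (hw.pos _).le (hw.pos _).le) (hw.nn _)
  have hqs : ∀ X Y, q X Y = q Y X := by
    intro X Y
    refine prod_congr rfl fun i _ => ?_
    rw [Sym2.eq_swap, mul_comm (w (X i))]
  have h1 : ∀ X Y, q X Y * T X + q X Y * T Y - q X Y ≤
      if (∀ s, |emp X s - w s| ≤ δ) ∧ ∀ s, |emp Y s - w s| ≤ δ then q X Y else 0 := by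
    intro X Y
    have := hq0 X Y
    simp only [hT]
    by_cases hX : ∀ s, |emp X s - w s| ≤ δ <;> by_cases hY : ∀ s, |emp Y s - w s| ≤ δ <;>
      simp [hX, hY, this]
  have hX : ∑ X, ∑ Y, q X Y * T X = ∑ X : Fin N → Ω,
      if ∀ s, |emp X s - w s| ≤ δ then ∏ i, w (X i) else 0 := by
    refine sum_congr rfl fun X _ => ?_
    rw [← sum_mul, sum_right hw X]
    simp only [hT]
    split_ifs <;> simp
  have hY : ∑ X, ∑ Y, q X Y * T Y = ∑ X, ∑ Y, q X Y * T X := by
    rw [sum_comm]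
    refine sum_congr rfl fun Y _ => sum_congr rfl fun X _ => ?_
    rw [hqs]
  have hall : ∑ X, ∑ Y, q X Y = 1 := by
    rw [sum_congr rfl fun X _ => sum_right hw X]
    exact H398.prod_total hw.sum
  calc (1 / 2 : ℝ) ≤ (∑ X, ∑ Y, q X Y * T X) + (∑ X, ∑ Y, q X Y * T Y) - ∑ X, ∑ Y, q X Y := by
        rw [hY, hX, hall]
        linarith
    _ = ∑ X, ∑ Y, (q X Y * T X + q X Y * T Y - q X Y) := by
        simp only [sum_add_distrib, sum_sub_distrib]
    _ ≤ _ := sum_le_sum fun X _ => sum_le_sum fun Y _ => h1 X Y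

end

end H559

end Vale.Agent.P050.Opt
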