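import Vale.Agent.P050.O.H322.Kpow

set_option linter.all false

/-!
The edges of a subdivision.
-/

open Finset

namespace Vale.Agent.P050.Opt

open Vale.Agent.P050 Vale.Agent.P050.Dense

namespace H559

section

variable {V : Type} (F : SimpleGraph V) {ℓ : ℕ}

theorem node_in (e : F.edgeSet) {i : ℕ} (h0 : 0 < i) (h1 : i < ℓ) :
    node F ℓ e i = Sum.inr (e, ⟨i - 1, by omega⟩) := by
  unfold node
  rw [dif_pos ⟨h0, h1⟩]

theorem node_zero (e : F.edgeSet) : node F ℓ e 0 = Sum.inl (Quot.out e.1).1 := by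
  unfold node
  rw [dif_neg (by omega), if_pos rfl]

theorem node_last (e : F.edgeSet) {i : ℕ} (h0 : 0 < i) (h1 : ℓ ≤ i) :
    node F ℓ e i = Sum.inl (Quot.out e.1).2 := by
  unfold node
  rw [dif_neg (by omega), if_neg (by omega)]

theorem out_eq (e : F.edgeSet) : e.1 = s((Quot.out e.1).1, (Quot.out e.1).2) := by
  have h := Quot.out_eq e.1
  conv_lhs => rw [← h]

theorem out_ne (e : F.edgeSet) : (Quot.out e.1).1 ≠ (Quot.out e.1).2 := by
  have h := e.2
  rw [out_eq F e, SimpleGraph.mem_edgeSet] at h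
  exact h.ne

/-- an inner node determines the edge and the position -/
theorem node_inj (e e' : F.edgeSet) {i i' : ℕ} (h0 : 0 < i) (h1 : i < ℓ)
    (h : node F ℓ e i = node F ℓ e' i') : e = e' ∧ i = i' := by
  rw [node_in F e h0 h1] at h
  rcases Nat.eq_zero_or_pos i' with hi | hi
  · subst hi
    rw [node_zero] at h
    cases h
  · rcases lt_or_ge i' ℓ with hl | hl
    · rw [node_in F e' hi hl] at h
      simp only [Sum.inr.injEq, Prod.mk.injEq, Fin.mk.injEq] at h
      exact ⟨h.1, by omega⟩
    · rw [node_last F e' hi hl] at h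
      cases h

theorem node_ne (hℓ : 1 ≤ ℓ) (e : F.edgeSet) {i : ℕ} (hi : i < ℓ) :
    node F ℓ e i ≠ node F ℓ e (i + 1) := by
  intro h
  rcases Nat.eq_zero_or_pos i with h0 | h0
  · subst h0
    rcases lt_or_ge 1 ℓ with h1 | h1
    · have := (node_inj F e e (by omega) h1 h.symm).2
      omega
    · rw [node_zero, node_last F e (by omega) (by omega)] at h
      simp only [Sum.inl.injEq] at h
      exact out_ne F e h
  · have := (node_inj F e e h0 hi h).2
    omega

theorem edge_inj (hℓ : 1 ≤ ℓ) {e e' : F.edgeSet} {i i' : ℕ} (hi : i < ℓ) (hi' : i' < ℓ)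
    (h : s(node F ℓ e i, node F ℓ e (i + 1)) = s(node F ℓ e' i', node F ℓ e' (i' + 1))) :
    e = e' ∧ i = i' := by
  rw [Sym2.eq_iff] at h
  rcases h with ⟨h1, h2⟩ | ⟨h1, h2⟩
  · rcases Nat.eq_zero_or_pos i with h0 | h0
    · subst h0
      rcases lt_or_ge 1 ℓ with h3 | h3
      · have := node_inj F e e' (by omega) h3 h2
        exact ⟨this.1, by omega⟩
      · have hi0 : i' = 0 := by omega
        subst hi0
        rw [node_zero, node_zero] at h1
        rw [node_last F e (by omega) (by omega), node_last F e' (by omega) (by omega)] at h2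
        simp only [Sum.inl.injEq] at h1 h2
        refine ⟨Subtype.ext ?_, rfl⟩
        rw [out_eq F e, out_eq F e', h1, h2]
    · exact node_inj F e e' h0 hi h1
  · rcases Nat.eq_zero_or_pos i with h0 | h0
    · subst h0
      rcases lt_or_ge (i' + 1) ℓ with h3 | h3
      · have := (node_inj F e' e (by omega) h3 h1.symm).2
        omega
      · rcases lt_or_ge 1 ℓ with h4 | h4
        · obtain ⟨he, h5⟩ := node_inj F e e' (by omega) h4 h2
          subst he
          subst h5
          rw [node_zero, node_last F e (by omega) (by omega)] at h1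
          simp only [Sum.inl.injEq] at h1
          exact absurd h1 (out_ne F e)
        · have hi0 : i' = 0 := by omega
          subst hi0
          rw [node_zero, node_last F e' (by omega) (by omega)] at h1
          rw [node_zero, node_last F e (by omega) (by omega)] at h2
          simp only [Sum.inl.injEq] at h1 h2
          refine ⟨Subtype.ext ?_, rfl⟩
          rw [out_eq F e, out_eq F e', h1, h2, Sym2.eq_swap]
    · exfalso
      obtain ⟨he, h5⟩ := node_inj F e e' h0 hi h1
      subst he
      subst h5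
      rcases Nat.eq_zero_or_pos i' with h6 | h6
      · subst h6
        rcases lt_or_ge 2 ℓ with h7 | h7
        · have := (node_inj F e e (by omega) h7 h2).2
          omega
        · rw [node_zero, node_last F e (by omega) (by omega)] at h2
          simp only [Sum.inl.injEq] at h2
          exact out_ne F e h2.symm
      · have := (node_inj F e e h6 hi' h2.symm).2
        omega

theorem prod_subdiv {X : Type} [Fintype V] [DecidableEq V] [DecidableRel F.Adj]
    (hℓ : 1 ≤ ℓ) [Fintype (V ⊕ (F.edgeSet × Fin (ℓ - 1)))]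
    [DecidableEq (V ⊕ (F.edgeSet × Fin (ℓ - 1)))] [DecidableRel (subdiv ℓ F).Adj]
    (W : X → X → ℝ) (hs : ∀ x y, W x y = W y x) (z : V ⊕ (F.edgeSet × Fin (ℓ - 1)) → X) :
    ∏ e ∈ (subdiv ℓ F).edgeFinset, ev W hs z e =
      ∏ e : F.edgeSet, ∏ i ∈ Finset.range ℓ, W (z (node F ℓ e i)) (z (node F ℓ e (i + 1))) := by
  rw [← Finset.prod_product']
  symm
  refine Finset.prod_bij (fun p _ => s(node F ℓ p.1 p.2, node F ℓ p.1 (p.2 + 1))) ?_ ?_ ?_ ?_
  · rintro ⟨e, i⟩ hp
    simp only [Finset.mem_product, Finset.mem_univ, true_and, Finset.mem_range] at hp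
    rw [SimpleGraph.mem_edgeFinset, SimpleGraph.mem_edgeSet, subdiv, SimpleGraph.fromRel_adj]
    exact ⟨node_ne F hℓ e hp, Or.inl ⟨e, i, hp, rfl, rfl⟩⟩
  · rintro ⟨e, i⟩ hp ⟨e', i'⟩ hp' h
    simp only [Finset.mem_product, Finset.mem_univ, true_and, Finset.mem_range] at hp hp'
    obtain ⟨h1, h2⟩ := edge_inj F hℓ hp hp' h
    exact Prod.ext h1 h2
  · intro q hq
    induction q using Sym2.ind with
    | _ x y =>
      rw [SimpleGraph.mem_edgeFinset, SimpleGraph.mem_edgeSet, subdiv,
        SimpleGraph.fromRel_adj] at hq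
      rcases hq.2 with ⟨e, i, hi, hx, hy⟩ | ⟨e, i, hi, hy, hx⟩
      · exact ⟨(e, i), by simp [hi], by rw [hx, hy]⟩
      · exact ⟨(e, i), by simp [hi], by rw [hx, hy, Sym2.eq_swap]⟩
  · rintro ⟨e, i⟩ _
    rfl

end

end H559

end Vale.Agent.P050.Opt
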