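import Vale.Agent.P050.O.H738.CorePos

set_option linter.all false

/-!
Dense targets, optimal order: the theta graph.
-/

open MeasureTheory Finset

namespace Vale.Agent.P050.Opt.H559

open Vale.Agent.P050 Vale.Agent.P050.Dense Vale.Agent.P050.Opt Vale.Agent.P050.Opt.H738

/-- an arc `X 0 = s, …, X l = i`, with no other edges at its inner vertices -/
structure Arc (M : ℕ) (K : Finset (ℕ × ℕ)) (s i : ℕ) (X : ℕ → ℕ) (l : ℕ) : Prop where
  h0 : X 0 = s
  h1 : X l = i
  pos : 1 ≤ l
  bd : ∀ j ≤ l, X j ≤ M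
  inj : ∀ j ≤ l, ∀ j' ≤ l, X j = X j' → j = j'
  ed : ∀ j < l, Ed M K (X j) (X (j + 1))
  cl : ∀ j, 0 < j → j < l → ∀ y, Ed M K (X j) y → y = X (j - 1) ∨ y = X (j + 1)

/-- the inner vertices are different -/
def Dj (X : ℕ → ℕ) (lX : ℕ) (Y : ℕ → ℕ) (lY : ℕ) : Prop :=
  ∀ j, 0 < j → j < lX → ∀ j', 0 < j' → j' < lY → X j ≠ Y j'

lemma Dj.symm {X : ℕ → ℕ} {lX : ℕ} {Y : ℕ → ℕ} {lY : ℕ} (h : Dj X lX Y lY) : Dj Y lY X lX :=
  fun j h1 h2 j' h3 h4 e => h j' h3 h4 j h1 h2 e.symm

/-- inner vertices of one arc are not on the other one -/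
lemma ne_of {M : ℕ} {K : Finset (ℕ × ℕ)} {s i : ℕ} {X Y : ℕ → ℕ} {lX lY : ℕ}
    (hX : Arc M K s i X lX) (hY : Arc M K s i Y lY) (h : Dj X lX Y lY) {j j' : ℕ}
    (h1 : 0 < j) (h2 : j < lX) (h3 : j' ≤ lY) : X j ≠ Y j' := by
  intro e
  rcases Nat.eq_zero_or_pos j' with h4 | h4
  · subst h4
    rw [hY.h0, ← hX.h0] at e
    have := hX.inj j h2.le 0 (by omega) e
    omega
  · rcases h3.eq_or_lt with h5 | h5
    · subst h5
      rw [hY.h1, ← hX.h1] at e
      have := hX.inj j h2.le lX le_rfl e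
      omega
    · exact h j h1 h2 j' h4 h5 e

/-- the edges of `Y` are not edges of the first part of `X` -/
lemma not_edge {M : ℕ} {K : Finset (ℕ × ℕ)} {s i : ℕ} {X Y : ℕ → ℕ} {lX lY : ℕ}
    (hX : Arc M K s i X lX) (hY : Arc M K s i Y lY) (h : Dj X lX Y lY) (hl : 2 ≤ lX)
    {j j' : ℕ} (hj : j < lX) (hj' : j' < lY) :
    ¬ (Y j' = X j ∧ Y (j' + 1) = X (j + 1)) ∧ ¬ (Y (j' + 1) = X j ∧ Y j' = X (j + 1)) := by
  rcases Nat.eq_zero_or_pos j with h0 | h0
  · subst h0
    refine ⟨fun e => ?_, fun e => ?_⟩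
    · exact ne_of hX hY h (j := 0 + 1) (by omega) (by omega) (j' := j' + 1) (by omega) e.2.symm
    · exact ne_of hX hY h (j := 0 + 1) (by omega) (by omega) (j' := j') (by omega) e.2.symm
  · refine ⟨fun e => ?_, fun e => ?_⟩
    · exact ne_of hX hY h h0 hj (j' := j') (by omega) e.1.symm
    · exact ne_of hX hY h h0 hj (j' := j' + 1) (by omega) e.1.symm

variable {V : Type*} [Fintype V] [DecidableEq V] {Ω : Type*} [MeasurableSpace Ω]
variable (μ : Measure Ω) [IsProbabilityMeasure μ] {U : Sym2 Ω → ℝ} {κ η : ℝ}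

lemma Arc.tail {M : ℕ} {K : Finset (ℕ × ℕ)} {s i : ℕ} {X Y : ℕ → ℕ} {lX lY k : ℕ}
    (hX : Arc M K s i X lX) (hY : Arc M K s i Y lY) (h : Dj X lX Y lY) (hk : 2 ≤ k)
    (kX : k ≤ lX) (kY : k ≤ lY) {j : ℕ} (hj : k ≤ j) (hj' : j < lX) :
    RE M K k X Y (X j) (X (j + 1)) := by
  refine ⟨hX.ed j hj', fun q hq => ⟨fun e => ?_, fun e => ?_⟩, fun q hq => ?_⟩
  · have := hX.inj j hj'.le q (by omega) e.1
    omega
  · have h1 := hX.inj (j + 1) (by omega) q (by omega) e.1
    omega
  · exact ⟨fun e => ne_of hX hY h (j := j) (by omega) hj' (j' := q) (by omega) e.1,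
      fun e => ne_of hX hY h (j := j) (by omega) hj' (j' := q + 1) (by omega) e.2⟩

lemma swapRE {M : ℕ} {K : Finset (ℕ × ℕ)} {k : ℕ} {P1 P2 : ℕ → ℕ} {x y : ℕ}
    (h : RE M K k P1 P2 x y) : RE M K k P2 P1 x y := ⟨h.1, h.2.2, h.2.1⟩

/-- a segment of an arc, all of whose edges remain -/
lemma seg_of {M : ℕ} {K : Finset (ℕ × ℕ)} {k : ℕ} {P1 P2 Z : ℕ → ℕ} {x y : ℕ} (hxy : x ≤ y)
    (h : ∀ j, x ≤ j → j < y → RE M K k P1 P2 (Z j) (Z (j + 1))) :
    RT M K k P1 P2 (Z x) (Z y) := by
  induction y, hxy using Nat.le_induction with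
  | base => exact Relation.ReflTransGen.refl
  | succ y hy ih =>
    exact Relation.ReflTransGen.tail (ih fun j h1 h2 => h j h1 (by omega)) (h y hy (by omega))

/-- two arcs of length at least `k` in a theta graph -/
theorem theta_gen (hU : Ker μ U κ η) {f : ℕ → V} {M : ℕ} {K : Finset (ℕ × ℕ)} (hf : Pos f M K)
    {k : ℕ} (hk : 2 ≤ k) {s i : ℕ} {X Y Z : ℕ → ℕ} {lX lY lZ : ℕ}
    (hX : Arc M K s i X lX) (hY : Arc M K s i Y lY) (hZ : Arc M K s i Z lZ)
    (dXY : Dj X lX Y lY) (dXZ : Dj X lX Z lZ) (dYZ : Dj Y lY Z lZ)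
    (cov : ∀ x ≤ M, (∃ j ≤ lX, x = X j) ∨ (∃ j ≤ lY, x = Y j) ∨ ∃ j ≤ lZ, x = Z j)
    (kX : k ≤ lX) (kY : k ≤ lY) : Bd μ U κ f M K k := by
  have tZ : ∀ j ≤ lZ, RT M K k X Y s (Z j) := by
    intro j hj
    rw [← hZ.h0]
    refine seg_of (Nat.zero_le _) fun q _ hq => ⟨hZ.ed q (by omega), fun q' hq' => ?_,
      fun q' hq' => ?_⟩
    · exact not_edge hX hZ dXZ (by omega) (by omega) (by omega)
    · exact not_edge hY hZ dYZ (by omega) (by omega) (by omega)
  have tI : RT M K k X Y s i := by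
    have := tZ lZ le_rfl
    rw [hZ.h1] at this
    exact this
  have tX : ∀ j ≤ lX, k ≤ j → RT M K k X Y s (X j) := by
    intro j hj hkj
    have h1 : RT M K k X Y (X j) (X lX) :=
      seg_of hj fun q h1 h2 => hX.tail hY dXY hk kX kY (by omega) h2
    rw [hX.h1] at h1
    exact tI.trans h1.symm
  have tY : ∀ j ≤ lY, k ≤ j → RT M K k X Y s (Y j) := by
    intro j hj hkj
    have h1 : RT M K k X Y (Y j) (Y lY) :=
      seg_of hj fun q h1 h2 => swapRE (hY.tail hX dXY.symm hk kY kX (by omega) h2)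
    rw [hY.h1] at h1
    exact tI.trans h1.symm
  have all : ∀ x ≤ M, (∀ j, 0 < j → j < k → x ≠ X j ∧ x ≠ Y j) → RT M K k X Y s x := by
    intro x hx hn
    rcases cov x hx with ⟨j, hj, rfl⟩ | ⟨j, hj, rfl⟩ | ⟨j, hj, rfl⟩
    · rcases Nat.eq_zero_or_pos j with h0 | h0
      · subst h0
        rw [hX.h0]
      · by_cases h1 : j < k
        · exact absurd rfl (hn j h0 h1).1
        · exact tX j hj (by omega)
    · rcases Nat.eq_zero_or_pos j with h0 | h0
      · subst h0
        rw [hY.h0]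
      · by_cases h1 : j < k
        · exact absurd rfl (hn j h0 h1).2
        · exact tY j hj (by omega)
    · exact tZ j hj
  refine core_pos μ hU hf hk (P1 := X) (P2 := Y) (fun j hj => hX.bd j (by omega))
    (fun j hj => hY.bd j (by omega))
    (fun j hj j' hj' e => hX.inj j (by omega) j' (by omega) e)
    (fun j hj j' hj' e => hY.inj j (by omega) j' (by omega) e)
    (fun j h1 h2 j' h3 => ne_of hX hY dXY h1 (by omega) (by omega))
    (fun j h1 h2 j' h3 => ne_of hY hX dXY.symm h1 (by omega) (by omega))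
    (fun j hj => hX.ed j (by omega)) (fun j hj => hY.ed j (by omega))
    (fun j h1 h2 => hX.cl j h1 (by omega)) (fun j h1 h2 => hY.cl j h1 (by omega))
    (fun x hx hn => Or.inl ?_) (fun x hx hn => Or.inl ?_)
  · rw [hX.h0]
    exact all x hx hn
  · rw [hY.h0]
    exact all x hx hn

lemma ed_iff {M s i x y : ℕ} : Ed M {(0, i), (s, M)} x y ↔
    (x + 1 = y ∧ y ≤ M) ∨ (y + 1 = x ∧ x ≤ M) ∨ (x = 0 ∧ y = i) ∨ (x = s ∧ y = M) ∨
      (y = 0 ∧ x = i) ∨ (y = s ∧ x = M) := by
  unfold Ed
  simp only [mem_insert, mem_singleton, Prod.mk.injEq]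
  tauto

/-- the middle arc -/
lemma arcA {M s i : ℕ} (hsi : s < i) (hiM : i < M) :
    Arc M {(0, i), (s, M)} s i (fun j => s + j) (i - s) where
  h0 := rfl
  h1 := by (try simp only); omega
  pos := by omega
  bd j hj := by (try simp only); omega
  inj j hj j' hj' e := by (try simp only at e); omega
  ed j hj := by rw [ed_iff]; (try simp only); omega
  cl j h1 h2 y hy := by rw [ed_iff] at hy; (try simp only at hy ⊢); omega

/-- the arc through `0` -/
lemma arcB {M s i : ℕ} (hsi : s < i) (hiM : i < M) :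
    Arc M {(0, i), (s, M)} s i (fun j => if j ≤ s then s - j else i) (s + 1) where
  h0 := by simp
  h1 := by simp
  pos := by omega
  bd j hj := by (try simp only); split_ifs <;> first | omega | contradiction
  inj j hj j' hj' e := by (try simp only at e); split_ifs at e <;> first | omega | contradiction
  ed j hj := by rw [ed_iff]; (try simp only); split_ifs <;> first | omega | contradiction
  cl j h1 h2 y hy := by
    rw [ed_iff] at hy
    (try simp only at hy ⊢)
    rw [if_pos (by omega : j ≤ s)] at hy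
    rw [if_pos (by omega : j - 1 ≤ s)]
    split_ifs <;> first | omega | contradiction

/-- the arc through `M` -/
lemma arcC {M s i : ℕ} (hsi : s < i) (hiM : i < M) :
    Arc M {(0, i), (s, M)} s i (fun j => if j = 0 then s else M + 1 - j) (M + 1 - i) where
  h0 := by simp
  h1 := by (try simp only); split_ifs <;> first | omega | contradiction
  pos := by omega
  bd j hj := by (try simp only); split_ifs <;> first | omega | contradiction
  inj j hj j' hj' e := by (try simp only at e); split_ifs at e <;> first | omega | contradiction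
  ed j hj := by rw [ed_iff]; (try simp only); split_ifs <;> first | omega | contradiction
  cl j h1 h2 y hy := by
    rw [ed_iff] at hy
    (try simp only at hy ⊢)
    rw [if_neg (by omega : ¬ j = 0)] at hy
    split_ifs <;> first | omega | contradiction

/-- the theta graph -/
theorem theta (hU : Ker μ U κ η) {f : ℕ → V} {M : ℕ} {s i : ℕ}
    (hf : Pos f M {(0, i), (s, M)}) {k : ℕ} (hk : 2 ≤ k) (hsi : s < i) (hiM : i < M)
    (g3 : 2 * k ≤ i + 1) (g1 : s + 2 * k ≤ M + 1) (g4 : 2 * k + i ≤ s + M + 2) :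
    Bd μ U κ f M {(0, i), (s, M)} k := by
  have hA := arcA (M := M) hsi hiM
  have hB := arcB (M := M) hsi hiM
  have hC := arcC (M := M) hsi hiM
  have dAB : Dj (fun j => s + j) (i - s) (fun j => if j ≤ s then s - j else i) (s + 1) := by
    intro j h1 h2 j' h3 h4
    simp only
    split_ifs <;> first | omega | contradiction
  have dAC : Dj (fun j => s + j) (i - s) (fun j => if j = 0 then s else M + 1 - j)
      (M + 1 - i) := by
    intro j h1 h2 j' h3 h4
    simp only
    split_ifs <;> first | omega | contradiction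
  have dBC : Dj (fun j => if j ≤ s then s - j else i) (s + 1)
      (fun j => if j = 0 then s else M + 1 - j) (M + 1 - i) := by
    intro j h1 h2 j' h3 h4
    simp only
    split_ifs <;> first | omega | contradiction
  have cov : ∀ x ≤ M, (∃ j ≤ i - s, x = (fun j => s + j) j) ∨
      (∃ j ≤ s + 1, x = (fun j => if j ≤ s then s - j else i) j) ∨
      ∃ j ≤ M + 1 - i, x = (fun j => if j = 0 then s else M + 1 - j) j := by
    intro x hx
    by_cases h1 : x < s
    · refine Or.inr (Or.inl ⟨s - x, by omega, ?_⟩)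
      simp only
      rw [if_pos (by omega)]
      omega
    · by_cases h2 : x ≤ i
      · refine Or.inl ⟨x - s, by omega, ?_⟩
        simp only
        omega
      · refine Or.inr (Or.inr ⟨M + 1 - x, by omega, ?_⟩)
        simp only
        rw [if_neg (by omega)]
        omega
  by_cases kA : k ≤ i - s
  · by_cases kB : k ≤ s + 1
    · exact theta_gen μ hU hf hk hA hB hC dAB dAC dBC cov kA kB
    · refine theta_gen μ hU hf hk hA hC hB dAC dAB dBC.symm (fun x hx => ?_) kA (by omega)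
      rcases cov x hx with h | h | h
      · exact Or.inl h
      · exact Or.inr (Or.inr h)
      · exact Or.inr (Or.inl h)
  · refine theta_gen μ hU hf hk hB hC hA dBC dAB.symm dAC.symm (fun x hx => ?_) (by omega)
      (by omega)
    rcases cov x hx with h | h | h
    · exact Or.inr (Or.inr h)
    · exact Or.inl h
    · exact Or.inr (Or.inl h)

end Vale.Agent.P050.Opt.H559
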